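import Vale.Agent.P181.DU.Defs2

set_option autoImplicit false

/-!
# P181, NB: next to the diagonal, every `b ≥ a + 1`

New: the transfer inequality `TraT` (a letter `k` gives `x - s` units to a small letter of size
`s`), which lowers the number of letters `> a` without changing the number of letters. So several
letters `> a` are negligible, and a single letter `> a` is dissolved with exactly `a + 1` letters
in all. Result: `AsmV` with `a + 1 ≤ b` and `w ^ 3 * polylog ≤ a ^ 4`.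
-/

open MvPolynomial

namespace Vale.Agent.P181.NB

open Vale.Agent.P181.T4 (HW ex low)
open Vale.Agent.P181.H280 (plethMult)
open Vale.Agent.P181.H463 (gt)
open Vale.Agent.P181.SZ (TI)
open Vale.Agent.P181.PL (dn)
open Vale.Agent.P181.DG Vale.Agent.P181.DU

/-- **(N0)** no room. -/
def ZerT : Prop := ∀ (m S : ℕ) (mu : Fin m → ℕ) (kap : Multiset ℕ) (t : ℕ),
  ∑ i, mu i < kap.sum → NT m S mu kap t = 0

open scoped Classical in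
/-- **(N1)** the transfer: one small letter of size `s` and the letter `k` become the letters `x`
and `k + s - x`. -/
def TraT : Prop := ∀ (m S : ℕ) (mu : Fin m → ℕ) (rho : Multiset ℕ) (k x t : ℕ), 1 ≤ S →
  S ≤ x → x < k → x ∉ rho → (∀ s, 1 ≤ s → s < S → k + s - x ∉ rho ∧ k + s - x ≠ x) →
  NT m S mu (k ::ₘ rho) (t + 1) ≤ NT m S mu (k ::ₘ rho) 0 +
    ∑ s ∈ Finset.Ico 1 S, NT m S mu ((k + s - x) ::ₘ x ::ₘ rho) t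

/-- The transfer inequality for abstract functions (`G kap = NT m S mu kap (a - card kap)`,
`E kap = NT m S mu kap 0`). -/
def TraG (a S : ℕ) (G E : Multiset ℕ → ℕ) : Prop := ∀ (rho : Multiset ℕ) (k x : ℕ),
  Multiset.card rho + 2 ≤ a → S ≤ x → x < k → x ∉ rho →
  (∀ s, 1 ≤ s → s < S → k + s - x ∉ rho ∧ k + s - x ≠ x) →
  G (k ::ₘ rho) ≤ E (k ::ₘ rho) + ∑ s ∈ Finset.Ico 1 S, G ((k + s - x) ::ₘ x ::ₘ rho)

/-- The number of letters `> a`. -/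
def big (a : ℕ) (k : Multiset ℕ) : ℕ := Multiset.card (k.filter fun x => a < x)

open scoped Classical in
/-- **(N2)** pure counting from `TraG`: several letters `> a` are negligible. -/
def FlowC : Prop := ∀ (G E : Multiset ℕ → ℕ) (a b S w : ℕ), TraG a S G E →
  (∀ kap, w < kap.sum → G kap = 0) → (∀ k ∈ KT w S, Multiset.card k + 2 ≤ a) →
  2 ≤ S → a + 1 ≤ b → 32 * S ≤ a → 32 * (b - a) ≤ a →
  512 * (S * w) ≤ a ^ 2 → 4096 * ((b - a) * w ^ 2) ≤ a ^ 3 →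
  4 * ∑ k ∈ (KT w S).filter (fun k => (∀ x ∈ k, x ≤ b) ∧ 2 ≤ big a k), G k ≤
    4 * ∑ k ∈ KT w S, E k +
      ∑ k ∈ (KT w S).filter (fun k => (∀ x ∈ k, x ≤ b) ∧ 1 ≤ big a k), G k

/-- One letter `> a`, at least `J` and at most `a` letters in all. -/
def BadOne (a b J : ℕ) (p : Multiset ℕ × ℕ) : Prop :=
  big a p.1 = 1 ∧ (∀ x ∈ p.1, x ≤ b) ∧ J ≤ Multiset.card p.1 + p.2 ∧ 1 ≤ p.2 ∧
    Multiset.card p.1 + p.2 ≤ a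

open scoped Classical in
/-- **(N3)** pure counting from `DisG`: the single letter `> a` is dissolved, the targets have
exactly `a + 1` letters. -/
def FlowD : Prop := ∀ (g : Multiset ℕ → ℕ → ℕ) (a b J S K X w : ℕ), DisG S g → 1 ≤ K → 4 ≤ S →
  4 * K ≤ X → w * X ^ 2 ≤ S ^ 2 → 6 * ((w + 1) * (a + 2)) ≤ X ^ K → (2 * K + 4) * S ≤ J →
  J ≤ a → a + 1 ≤ b → b ≤ a + S → 64 * ((K + 1) ^ 2 * S) ≤ a →
  2 ^ 12 * ((K + 1) ^ 3 * w) ≤ a ^ 2 → 2 ^ 16 * ((K + 1) ^ 3 * w ^ 2) ≤ a ^ 3 →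
  3 * ∑ p ∈ (KT w S ×ˢ Finset.range (a + 2)).filter (BadOne a b J), g p.1 p.2 ≤
    ∑ p ∈ (KT w S ×ˢ Finset.range (a + 2)).filter (GoodV a (a + 1)), g p.1 p.2

/-- **(N4)** the assembly: `DU.AsmV` for every `b ≥ a + 1`; instead of
`a * a + (6 * K + 2) * w ≤ a * b` the three conditions `b ≤ a + Z`, `X ^ 4 (b - a) w ^ 2 ≤ a ^ 3`,
`X ^ 3 Z w ≤ a ^ 2`. -/
def AsmN : Prop := ∀ (a b n R X Z K w a0 b0 : ℕ) (lam nu : Fin n → ℕ), Antitone lam →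
  ∑ i, lam i = a * b → ((∀ i, 0 < lam i) ∨ n ≤ Z * X ^ 2) → 1 ≤ R → R + 1 < n →
  w = dn lam 1 → Z ^ 2 ≤ w → w < (Z + 1) ^ 2 →
  1 ≤ K → 128 * K + 128 ≤ X → X ≤ Z → 4 * w ≤ X ^ K → 100 * K * ((Z + 1) * X) ≤ a →
  a + 1 ≤ b → b ≤ a + Z → X ^ 4 * ((b - a) * w ^ 2) ≤ a ^ 3 → X ^ 3 * (Z * w) ≤ a ^ 2 →
  Z * X ^ 2 + 2 ≤ a → 1 ≤ a0 → a0 < a →
  a + a0 * (a0 + 2) ≤ w → 3 * (b0 + 1) ≤ a →
  (∀ i : Fin n, 1 ≤ (i : ℕ) → nu i ≤ lam i) →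
  (∀ i : Fin n, 1 ≤ (i : ℕ) → ex lam ((i : ℕ) + 1) ≤ nu i) → w = dn nu 1 + a →
  (n ≤ Z * X ^ 2 → 2 * ((w + 1) ^ ((R + 1) * (Z * X ^ 2)) *
    gt (n - R) (Z * X ^ 2 + 1) (low R nu)) ≤ plethMult b0 a0 n nu) →
  plethMult a b n lam ≤ plethMult b a n lam

/-- The hypotheses: `DU.HyV` with `a + 1 ≤ b`, `a * (b - a) ≤ X ^ 200 * w`,
`w ^ 3 * X ^ 30000 ≤ a ^ 4` instead of `a * a + X * w ≤ a * b`. -/
def HyN (a b n X : ℕ) (lam : Fin n → ℕ) : Prop :=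
  Antitone lam ∧ ∑ i, lam i = a * b ∧ (∀ i, 0 < lam i) ∧ n ≤ a ∧ a + 1 ≤ b ∧ b ≤ 5 * a ∧
    a * (b - a) ≤ X ^ 200 * dn lam 1 ∧ dn lam 1 ^ 3 * X ^ 30000 ≤ a ^ 4 ∧
    X ^ 20000 ≤ a ∧ 10 ^ 12 * (1 + Real.log a) ^ 7 ≤ X ∧
    dn lam 1 * X ^ 6000 ≤ dn lam 2 ^ 2 ∧ a < ex lam 1 ∧ (2 * X + 1) * a ≤ X * dn lam 1 ∧
    dn lam 1 * X ^ 13000 ≤ a ^ 2

/-- **(N5)** the theorem: every `b ≥ a + 1`, `w ^ 3 * polylog ≤ a ^ 4`. -/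
def DiagN : Prop := ∃ (C : ℝ) (c : ℕ), 0 < C ∧ ∀ a b : ℕ, a + 1 ≤ b →
  ∀ (n : ℕ) (lam : Fin n → ℕ),
  (dn lam 1 ≤ b ∨ 2 * (a : ℝ) + a / (1 + Real.log a) ^ 7 ≤ dn lam 1) →
  C * (1 + Real.log a) ^ c * (dn lam 1 : ℝ) ^ 3 ≤ (a : ℝ) ^ 4 →
  (C * (1 + Real.log a) ^ c * (dn lam 1 : ℝ) ≤ (dn lam 2 : ℝ) ^ 2 ∨ a + dn lam 2 ≤ b + 1) →
  plethMult a b n lam ≤ plethMult b a n lam

end Vale.Agent.P181.NB
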